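import Vale.Agent.P113.Bdl.B3

/-!
# P113: flows which are steady after time two
-/

namespace Vale.Agent.P113.H435

open Vale.Agent.P113
open scoped ContDiff Topology
open Set Filter

/-! ## The switch -/

theorem dispG_contDiff : ContDiff ℝ ∞ dispG := by
  rw [contDiff_infty_iff_deriv]
  refine ⟨fun t => (dispG_hasDerivAt t).differentiableAt, ?_⟩
  have : deriv dispG = bump := funext fun t => (dispG_hasDerivAt t).deriv
  rw [this]
  exact bump_contDiff

theorem dispG_of_nonpos {t : ℝ} (h : t ≤ 0) : dispG t = 0 := by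
  unfold dispG
  rw [intervalIntegral.integral_congr (g := fun _ => 0)]
  · simp
  · intro s hs
    rw [uIcc_of_ge h] at hs
    exact bump_of_nonpos hs.2

theorem dispG_mono : Monotone dispG :=
  monotone_of_hasDerivAt_nonneg dispG_hasDerivAt (fun t => bump_nonneg t)

/-- The switch: `0` for `t ≤ 1` and constant for `t ≥ 2`. -/
noncomputable def chi (t : ℝ) : ℝ := dispG (t - 1)

theorem chi_contDiff : ContDiff ℝ ∞ chi :=
  dispG_contDiff.comp (contDiff_id.sub contDiff_const)

theorem chi_hasDerivAt (t : ℝ) : HasDerivAt chi (bump (t - 1)) t := by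
  have h := (dispG_hasDerivAt (t - 1)).comp t ((hasDerivAt_id t).sub_const 1)
  rw [mul_one] at h
  exact h

theorem deriv_chi (t : ℝ) : deriv chi t = bump (t - 1) := (chi_hasDerivAt t).deriv

theorem chi_of_le_one {t : ℝ} (h : t ≤ 1) : chi t = 0 := dispG_of_nonpos (by linarith)

theorem chi_of_two_le {t : ℝ} (h : 2 ≤ t) : chi t = dispI := dispG_of_one_le (by linarith)

theorem chi_nonneg (t : ℝ) : 0 ≤ chi t := by
  rcases le_total t 1 with h | h
  · rw [chi_of_le_one h]
  · have := dispG_mono (show (0 : ℝ) ≤ t - 1 by linarith)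
    rwa [dispG_zero] at this

theorem chi_le (t : ℝ) : chi t ≤ dispI := by
  rcases le_total t 2 with h | h
  · have := dispG_mono (show t - 1 ≤ (1 : ℝ) by linarith)
    rwa [dispG_of_one_le le_rfl] at this
  · rw [chi_of_two_le h]

theorem deriv_chi_of_two_le {t : ℝ} (h : 2 ≤ t) : deriv chi t = 0 := by
  rw [deriv_chi, bump_of_one_le (by linarith)]

theorem bump_mul_chi (t : ℝ) : bump t * chi t = 0 := by
  rcases le_total t 1 with h | h
  · rw [chi_of_le_one h, mul_zero]
  · rw [bump_of_one_le h, zero_mul]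

theorem chi_cont : Continuous chi := chi_contDiff.continuous

/-- The velocity field. -/
noncomputable def velS (r : ℝ) (ψ : ℝ → ℝ) (t : ℝ) (θ : T3) : E3 :=
  ![bump t * r, chi t * circ ψ (θ 0), 0]

/-- The force. -/
noncomputable def frcS (ν r : ℝ) (ψ : ℝ → ℝ) (t : ℝ) (θ : T3) : E3 :=
  ![deriv bump t * r,
    deriv chi t * circ ψ (θ 0) - ν * (chi t * circ (deriv (deriv ψ)) (θ 0)), 0]

variable {ν r : ℝ} {ψ : ℝ → ℝ}

theorem velS_proj (hψ : Function.Periodic ψ 1) (t : ℝ) (x : E3) :
    velS r ψ t (proj x) = ![bump t * r, chi t * ψ (x 0), 0] := by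
  unfold velS proj
  rw [circ_coe hψ]

theorem frcS_proj (hψ : Function.Periodic ψ 1) (t : ℝ) (x : E3) :
    frcS ν r ψ t (proj x) = ![deriv bump t * r,
      deriv chi t * ψ (x 0) - ν * (chi t * deriv (deriv ψ) (x 0)), 0] := by
  unfold frcS proj
  rw [circ_coe hψ, circ_coe (deriv_periodic (deriv_periodic hψ))]
theorem velS_contDiff (hψ : Function.Periodic ψ 1) (hs : ContDiff ℝ ∞ ψ) :
    ContDiff ℝ ∞ (fun z : ℝ × E3 => velS r ψ z.1 (proj z.2)) := by
  simp only [velS_proj hψ]
  exact contDiff_vec3 ((bump_contDiff.comp contDiff_fst).mul contDiff_const)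
    ((chi_contDiff.comp contDiff_fst).mul (hs.comp contDiff_x0)) contDiff_const

theorem frcS_contDiff (hψ : Function.Periodic ψ 1) (hs : ContDiff ℝ ∞ ψ) :
    ContDiff ℝ ∞ (fun z : ℝ × E3 => frcS ν r ψ z.1 (proj z.2)) := by
  simp only [frcS_proj hψ]
  refine contDiff_vec3 (((deriv_smooth bump_contDiff).comp contDiff_fst).mul contDiff_const)
    ?_ contDiff_const
  refine (((deriv_smooth chi_contDiff).comp contDiff_fst).mul (hs.comp contDiff_x0)).sub ?_
  refine contDiff_const.mul ((chi_contDiff.comp contDiff_fst).mul ?_)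
  exact (deriv_smooth (deriv_smooth hs)).comp contDiff_x0

theorem velS_hasDerivAt (hψ : Function.Periodic ψ 1) (x : E3) (t : ℝ) :
    HasDerivAt (fun s => velS r ψ s (proj x))
      ![deriv bump t * r, deriv chi t * ψ (x 0), 0] t := by
  simp only [velS_proj hψ]
  refine hasDerivAt_vec3 ?_ ?_ (hasDerivAt_const _ _)
  · exact ((bump_contDiff (n := ⊤)).differentiable (by simp) t).hasDerivAt.mul_const r
  · exact (chi_contDiff.differentiable (by simp) t).hasDerivAt.mul_const _

theorem velS_isSmooth (hψ : Function.Periodic ψ 1) (hs : ContDiff ℝ ∞ ψ) (i : Fin 3) :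
    IsSmooth (fun t x => velS r ψ t (proj x) i) :=
  contDiff_pi.1 (velS_contDiff (r := r) hψ hs) i

theorem frcS_isSmooth (hψ : Function.Periodic ψ 1) (hs : ContDiff ℝ ∞ ψ) (i : Fin 3) :
    IsSmooth (fun t x => frcS ν r ψ t (proj x) i) :=
  contDiff_pi.1 (frcS_contDiff (ν := ν) (r := r) hψ hs) i

theorem velS_classical (hψ : Function.Periodic ψ 1) (hs : ContDiff ℝ ∞ ψ) {T : ℝ} (hT : 0 < T) :
    IsClassicalSolution ν T (frcS ν r ψ) (velS r ψ) (fun _ _ => 0) := by
  have hV : ∀ i, IsSmooth (fun t x => velS r ψ t (proj x) i) := velS_isSmooth hψ hs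
  have hdψ : Differentiable ℝ ψ := hs.differentiable (by simp)
  have hddψ : Differentiable ℝ (deriv ψ) := (deriv_smooth hs).differentiable (by simp)
  have hud : UniqueDiffOn ℝ (Icc (0:ℝ) T) := uniqueDiffOn_Icc hT
  have hcomp : ∀ (x : E3) (t : ℝ) (i : Fin 3), HasDerivAt (fun s => velS r ψ s (proj x) i)
      ((![deriv bump t * r, deriv chi t * ψ (x 0), 0] : E3) i) t := fun x t i =>
    (hasDerivAt_pi.1 (velS_hasDerivAt (r := r) hψ x t)) i
  have hdw : ∀ (x : E3), ∀ t ∈ Icc (0:ℝ) T, ∀ i : Fin 3,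
      derivWithin (fun s => velS r ψ s (proj x) i) (Icc 0 T) t =
        (![deriv bump t * r, deriv chi t * ψ (x 0), 0] : E3) i := fun x t ht i =>
    (hcomp x t i).hasDerivWithinAt.derivWithin (hud t ht)
  have hzero : IsSmooth (fun (_ : ℝ) (_ : E3) => (0:ℝ)) := contDiff_const
  refine ⟨?_, ?_, ?_, ?_, ?_, ?_, ?_, ?_, ?_, ?_, ?_, ?_, ?_⟩
  · intro t _ i
    exact (hV i).slice t 2
  · intro t _
    exact contDiff_const
  · intro t _ x i
    obtain ⟨y, rfl⟩ : ∃ y, proj y = x := by
      have h : ∀ i, ∃ r : ℝ, (r : UnitAddCircle) = x i := fun i =>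
        QuotientAddGroup.mk_surjective (x i)
      choose r hr using h
      exact ⟨r, funext hr⟩
    exact (hcomp y t i).differentiableAt.differentiableWithinAt
  · exact fun i => (hV i).isCont T
  · intro i
    have hc : Continuous (fun z : ℝ × E3 =>
        (![deriv bump z.1 * r, deriv chi z.1 * ψ (z.2 0), 0] : E3)) := by
      refine (contDiff_vec3 (n := ∞) ?_ ?_ contDiff_const).continuous
      · exact ((deriv_smooth bump_contDiff).comp contDiff_fst).mul contDiff_const
      · exact ((deriv_smooth chi_contDiff).comp contDiff_fst).mul (hs.comp contDiff_x0)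
    have hc' : Continuous (fun z : ℝ × E3 =>
        (![deriv bump z.1 * r, deriv chi z.1 * ψ (z.2 0), 0] : E3) i) :=
      (continuous_apply i).comp hc
    refine hc'.continuousOn.congr ?_
    rintro ⟨t, x⟩ ⟨ht, _⟩
    exact hdw x t ht i
  · exact fun i j => ((hV i).pd j).isCont T
  · exact fun i j k => (((hV i).pd j).pd k).isCont T
  · exact hzero.isCont T
  · exact fun i => (hzero.pd i).isCont T
  · intro t ht x i
    rw [hdw x t ht i]
    simp only [velS_proj hψ, frcS_proj hψ, Fin.sum_univ_three]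
    have hmul := bump_mul_chi t
    have epd : ∀ (j : Fin 3), Vale.Agent.P113.pd j (fun y : E3 => chi t * ψ (y 0)) =
        fun y => (if j = 0 then chi t * deriv ψ (y 0) else 0) := fun j => by
      funext y; exact pd_const_mul_x0 hdψ _ j y
    have epd0 : Vale.Agent.P113.pd 0 (fun y : E3 => chi t * ψ (y 0)) =
        fun y => chi t * deriv ψ (y 0) := by rw [epd]; simp
    have epd1 : Vale.Agent.P113.pd 1 (fun y : E3 => chi t * ψ (y 0)) = fun y => 0 := by
      rw [epd]; simp
    have epd2 : Vale.Agent.P113.pd 2 (fun y : E3 => chi t * ψ (y 0)) = fun y => 0 := by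
      rw [epd]; simp
    have ec : ∀ (j : Fin 3) (c : ℝ), Vale.Agent.P113.pd j (fun y : E3 => c) = fun _ => 0 :=
      fun j c => by funext y; exact pd_const c j y
    fin_cases i
    · simp [ec]
    · simp [ec, epd0, epd1, epd2, pd_const_mul_x0 hddψ]
      rcases mul_eq_zero.1 hmul with h | h <;> simp [h]
    · simp [ec]
  · intro t _ x
    simp only [velS_proj hψ, Fin.sum_univ_three]
    simp [pd_const, pd_const_mul_x0 hdψ]
  · intro x i
    have h0 : chi 0 = 0 := chi_of_le_one zero_le_one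
    have h1 : bump 0 = 0 := bump_of_nonpos le_rfl
    fin_cases i <;> simp [velS, h0, h1]
  · intro t _
    simp


/-! ## Displacement -/

/-- The displacement factor of the shear. -/
noncomputable def dispS (t : ℝ) : ℝ := ∫ s in (0:ℝ)..t, chi s

theorem dispS_hasDerivAt (t : ℝ) : HasDerivAt dispS (chi t) t :=
  intervalIntegral.integral_hasDerivAt_right (chi_cont.intervalIntegrable _ _)
    (chi_cont.stronglyMeasurableAtFilter _ _) chi_cont.continuousAt

theorem dispS_zero : dispS 0 = 0 := by simp [dispS]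

theorem dispS_mono : Monotone dispS := monotone_of_hasDerivAt_nonneg dispS_hasDerivAt chi_nonneg

theorem dispS_cont : Continuous dispS :=
  continuous_iff_continuousAt.2 fun t => (dispS_hasDerivAt t).continuousAt

theorem dispS_nonneg {t : ℝ} (h : 0 ≤ t) : 0 ≤ dispS t := by
  have := dispS_mono h
  rwa [dispS_zero] at this

theorem dispS_two_le : dispS 2 ≤ 2 * dispI := by
  have h : dispS 2 ≤ ∫ s in (0:ℝ)..2, dispI :=
    intervalIntegral.integral_mono_on (by norm_num) (chi_cont.intervalIntegrable _ _) (by simp)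
      (fun x _ => chi_le x)
  simpa using h

theorem dispS_of_two_le {t : ℝ} (h : 2 ≤ t) : dispS t = dispS 2 + (t - 2) * dispI := by
  unfold dispS
  rw [← intervalIntegral.integral_add_adjacent_intervals (chi_cont.intervalIntegrable 0 2)
    (chi_cont.intervalIntegrable 2 t)]
  congr 1
  rw [intervalIntegral.integral_congr (g := fun _ => dispI)]
  · simp
  · intro s hs
    rw [uIcc_of_le h] at hs
    exact chi_of_two_le hs.1

/-- The explicit trajectory. -/
noncomputable def trajS (r : ℝ) (ψ : ℝ → ℝ) (t : ℝ) : E3 :=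
  ![r * dispG t, dispS t * ψ (r * dispI), 0]

theorem chi_mul_eq {r : ℝ} {ψ : ℝ → ℝ} {t : ℝ} :
    chi t * ψ (r * dispG t) = chi t * ψ (r * dispI) := by
  rcases le_total t 1 with h | h
  · simp [chi_of_le_one h]
  · rw [dispG_of_one_le h]

theorem trajS_isTrajectory (r : ℝ) {ψ : ℝ → ℝ} (hψ : Function.Periodic ψ 1) :
    IsTrajectory (velS r ψ) 0 (trajS r ψ) := by
  constructor
  · funext i
    fin_cases i <;> simp [proj, trajS, dispG_zero, dispS_zero]
  · intro t ht i
    rw [velS_proj hψ]
    have : (![bump t * r, chi t * ψ (trajS r ψ t 0), 0] : E3) =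
        ![r * bump t, chi t * ψ (r * dispI), 0] := by
      have e : trajS r ψ t 0 = r * dispG t := rfl
      rw [e, chi_mul_eq, mul_comm]
    rw [this]
    refine HasDerivAt.hasDerivWithinAt ?_
    have h3 : HasDerivAt (trajS r ψ) ![r * bump t, chi t * ψ (r * dispI), 0] t := by
      unfold trajS
      refine hasDerivAt_vec3 ?_ ?_ (hasDerivAt_const _ _)
      · exact (dispG_hasDerivAt t).const_mul r
      · exact (dispS_hasDerivAt t).mul_const _
    exact (hasDerivAt_pi.1 h3) i

/-- Every trajectory of the origin is the explicit one, up to integers, in the second component. -/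
theorem trajS_unique {r : ℝ} {ψ : ℝ → ℝ} (hψ : Function.Periodic ψ 1) {X : ℝ → E3}
    (hX : IsTrajectory (velS r ψ) 0 X) :
    ∃ n : ℤ, ∀ t, 0 ≤ t → X t 1 = n + dispS t * ψ (r * dispI) := by
  obtain ⟨hX0, hX⟩ := hX
  have hcomp : ∀ (i : Fin 3) (t : ℝ), 0 ≤ t →
      HasDerivWithinAt (fun s => X s i) (velS r ψ t (proj (X t)) i) (Ici 0) t :=
    fun i t ht => hX t ht i
  -- initial integers
  have hint : ∀ i : Fin 3, ∃ n : ℤ, X 0 i = n := by
    intro i
    have h1 := congrFun hX0 i
    have h2 : ((X 0 i : ℝ) : UnitAddCircle) = 0 := h1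
    rw [AddCircle.coe_eq_zero_iff] at h2
    obtain ⟨n, hn⟩ := h2
    exact ⟨n, by simpa using hn.symm⟩
  obtain ⟨n0, hn0⟩ := hint 0
  obtain ⟨n1, hn1⟩ := hint 1
  have h0 : ∀ t, 0 ≤ t → X t 0 = n0 + r * dispG t := by
    intro t ht
    have h := eqOn_of_deriv (g := fun s => X s 0) (k := fun s => r * dispG s)
      (g' := fun s => r * bump s) ?_ ?_ ht
    · simp only [dispG_zero, mul_zero, sub_zero, hn0] at h
      linarith
    · intro s hs
      have := hcomp 0 s hs
      rw [velS_proj hψ] at this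
      simpa [mul_comm] using this
    · intro s hs
      exact ((dispG_hasDerivAt s).const_mul r).hasDerivWithinAt
  refine ⟨n1, ?_⟩
  intro t ht
  have h := eqOn_of_deriv (g := fun s => X s 1) (k := fun s => dispS s * ψ (r * dispI))
    (g' := fun s => chi s * ψ (r * dispI)) ?_ ?_ ht
  · simp only [dispS_zero, zero_mul, sub_zero, hn1] at h
    linarith
  · intro s hs
    have := hcomp 1 s hs
    rw [velS_proj hψ] at this
    have e2 : ψ (X s 0) = ψ (r * dispG s) := by
      rw [h0 s hs, add_comm]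
      have := hψ.int_mul n0 (r * dispG s)
      simpa using this
    simp only [Matrix.cons_val_one, Matrix.cons_val_zero, e2] at this
    rwa [chi_mul_eq] at this
  · intro s hs
    exact ((dispS_hasDerivAt s).mul_const _).hasDerivWithinAt

/-- The trajectory is in the detecting set before time `τ` exactly when the displacement exceeds
`1/4` at time `τ`. -/
theorem trajS_enters_iff {r : ℝ} {ψ : ℝ → ℝ} (hψ : Function.Periodic ψ 1)
    (hnn : ∀ s, 0 ≤ ψ s) {X : ℝ → E3} (hX : IsTrajectory (velS r ψ) 0 X) {τ : ℝ} (hτ : 0 ≤ τ) :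
    (∃ t : ℝ, 0 ≤ t ∧ t ≤ τ ∧ proj (X t) ∈ openSet) ↔ 1 / 4 < dispS τ * ψ (r * dispI) := by
  obtain ⟨n1, h1⟩ := trajS_unique hψ hX
  constructor
  · rintro ⟨t, ht, htτ, y, hy, hyt⟩
    by_contra hcon
    have hle : dispS t * ψ (r * dispI) ≤ 1 / 4 :=
      (mul_le_mul_of_nonneg_right (dispS_mono htτ) (hnn _)).trans (not_lt.1 hcon)
    have hge : 0 ≤ dispS t * ψ (r * dispI) := mul_nonneg (dispS_nonneg ht) (hnn _)
    have hyt' : (y : UnitAddCircle) = ((dispS t * ψ (r * dispI) : ℝ) : UnitAddCircle) := by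
      have : (y : UnitAddCircle) = proj (X t) 1 := hyt
      rw [this]
      unfold proj
      rw [h1 t ht, AddCircle.coe_add, coe_int_circle, zero_add]
    have hz : ((y - dispS t * ψ (r * dispI) : ℝ) : UnitAddCircle) = 0 := by
      rw [AddCircle.coe_sub, hyt', sub_self]
    rw [AddCircle.coe_eq_zero_iff] at hz
    obtain ⟨m, hm⟩ := hz
    simp only [zsmul_eq_mul, mul_one] at hm
    have e1 : (0:ℝ) < m := by rw [hm]; linarith [hy.1]
    have e2 : (m:ℝ) < 1 := by rw [hm]; linarith [hy.2]
    have e1' : (0:ℤ) < m := by exact_mod_cast e1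
    have e2' : m < (1:ℤ) := by exact_mod_cast e2
    omega
  · intro hlt
    have hpos : 0 < ψ (r * dispI) := by
      refine lt_of_le_of_ne (hnn _) fun h => ?_
      rw [← h, mul_zero] at hlt
      linarith
    -- a value in the window
    obtain ⟨v, hv1, hv2, hv3⟩ : ∃ v : ℝ, 1 / 4 < v ∧ v < 3 / 4 ∧ v ≤ dispS τ * ψ (r * dispI) :=
      ⟨min (1 / 2) (dispS τ * ψ (r * dispI)), lt_min (by norm_num) hlt,
        (min_le_left _ _).trans_lt (by norm_num), min_le_right _ _⟩
    have hmem : v / ψ (r * dispI) ∈ Icc (dispS 0) (dispS τ) := by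
      rw [dispS_zero]
      exact ⟨div_nonneg (by linarith) hpos.le, (div_le_iff₀ hpos).2 hv3⟩
    obtain ⟨t, ht, hteq⟩ := intermediate_value_Icc hτ dispS_cont.continuousOn hmem
    refine ⟨t, ht.1, ht.2, v, ⟨hv1, hv2⟩, ?_⟩
    unfold proj
    simp only []
    rw [h1 t ht.1, hteq, div_mul_cancel₀ _ hpos.ne', AddCircle.coe_add, coe_int_circle, zero_add]

end Vale.Agent.P113.H435
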