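import Vale.Agent.P113.H435.Mixed

/-!
# P113: steady flows, small forces, halting times
-/

namespace Vale.Agent.P113.H435

open Vale.Agent.P113
open scoped ContDiff Topology
open Set Filter Encodable

/-! ## Bounds -/

theorem exists_bound_sum {F : ℕ → ℝ → ℝ} (h : ∀ k, ∃ C : ℝ, 0 ≤ C ∧ ∀ s, |F k s| ≤ C) (m : ℕ) :
    ∃ C : ℝ, 0 ≤ C ∧ ∀ k ≤ m, ∀ s, |F k s| ≤ C := by
  choose C hC0 hC using h
  refine ⟨∑ k ∈ Finset.range (m + 1), C k, Finset.sum_nonneg fun k _ => hC0 k, fun k hk s => ?_⟩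
  exact (hC k s).trans (Finset.single_le_sum (f := C) (fun k _ => hC0 k)
    (Finset.mem_range.2 (by omega)))

theorem bump_bound (m : ℕ) : ∃ C : ℝ, 0 ≤ C ∧ ∀ k ≤ m, ∀ s, |iteratedDeriv k bump s| ≤ C :=
  exists_bound_sum (F := fun k => iteratedDeriv k bump) (fun k => bumpy_bump.exists_bound k) m

theorem chi_bound (m : ℕ) : ∃ C : ℝ, 0 ≤ C ∧ ∀ k ≤ m, ∀ s, |iteratedDeriv k chi s| ≤ C := by
  refine exists_bound_sum (F := fun k => iteratedDeriv k chi) (fun k => ?_) m
  rcases k with _ | k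
  · refine ⟨dispI, dispI_pos.le, fun s => ?_⟩
    rw [iteratedDeriv_zero, abs_of_nonneg (chi_nonneg s)]
    exact chi_le s
  · obtain ⟨C, hC0, hC⟩ := bumpy_bump.exists_bound k
    refine ⟨C, hC0, fun s => ?_⟩
    rw [iteratedDeriv_chi_succ]
    exact hC _

theorem prof_bound' (m : ℕ) : ∃ C : ℝ, 0 ≤ C ∧ ∀ k ≤ m, ∀ c : ℕ → ℝ, (∀ n, |c n| ≤ 1) →
    ∀ x, |iteratedDeriv k (prof c) x| ≤ C := by
  choose C hC0 hC using prof_bound
  refine ⟨∑ k ∈ Finset.range (m + 1), C k, Finset.sum_nonneg fun k _ => hC0 k,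
    fun k hk c hc s => ?_⟩
  exact (hC k c hc s).trans (Finset.single_le_sum (f := C) (fun k _ => hC0 k)
    (Finset.mem_range.2 (by omega)))

theorem iteratedDeriv_amp (δ : ℝ) (c : ℕ → ℝ) (k : ℕ) (x : ℝ) :
    iteratedDeriv k (fun y => δ * prof c y) x = δ * iteratedDeriv k (prof c) x :=
  iteratedDeriv_const_mul_field _ _

theorem mixedS_bound (ν : ℝ) (m : ℕ) : ∃ C : ℝ, 0 ≤ C ∧
    ∀ (r δ : ℝ) (c : ℕ → ℝ), (∀ n, |c n| ≤ 1) → ∀ (i : Fin 3) (α : ℕ × ℕ × ℕ × ℕ),
      α.1 + α.2.1 + α.2.2.1 + α.2.2.2 ≤ m → ∀ t y : ℝ,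
        |mixedS ν r (fun x => δ * prof c x) i α t y| ≤ C * (|r| + |δ|) := by
  obtain ⟨Cb, hb0, hb⟩ := bump_bound (m + 1)
  obtain ⟨Cc, hc0, hc⟩ := chi_bound (m + 1)
  obtain ⟨Cp, hp0, hp⟩ := prof_bound' (m + 2)
  refine ⟨Cb + (Cc * Cp + |ν| * (Cc * Cp)), by positivity, ?_⟩
  intro r δ c hc1 i α hα t y
  have hr := abs_nonneg r
  have hδ := abs_nonneg δ
  have hnn : 0 ≤ Cc * Cp + |ν| * (Cc * Cp) := by positivity
  have hz : 0 ≤ (Cb + (Cc * Cp + |ν| * (Cc * Cp))) * (|r| + |δ|) := by positivity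
  unfold mixedS
  split_ifs with h0 h1 h2 h3
  · rw [abs_mul]
    have e := mul_le_mul_of_nonneg_right (hb (α.1 + 1) (by omega) t) hr
    calc _ ≤ Cb * |r| := e
      _ ≤ (Cb + (Cc * Cp + |ν| * (Cc * Cp))) * (|r| + |δ|) := by
        refine mul_le_mul ?_ ?_ hr (by positivity)
        · linarith
        · linarith
  · rw [abs_zero]; exact hz
  · rw [iteratedDeriv_amp, iteratedDeriv_amp]
    have a1 : |iteratedDeriv (α.1 + 1) chi t * (δ * iteratedDeriv α.2.1 (prof c) y)| ≤
        (Cc * Cp) * |δ| := by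
      rw [abs_mul, abs_mul]
      have e1 := hc (α.1 + 1) (by omega) t
      have e2 := hp α.2.1 (by omega) c hc1 y
      calc _ ≤ Cc * (|δ| * Cp) := by gcongr
        _ = _ := by ring
    have a2 : |ν * (iteratedDeriv α.1 chi t * (δ * iteratedDeriv (α.2.1 + 2) (prof c) y))| ≤
        |ν| * (Cc * Cp) * |δ| := by
      rw [abs_mul, abs_mul, abs_mul]
      have e1 := hc α.1 (by omega) t
      have e2 := hp (α.2.1 + 2) (by omega) c hc1 y
      calc _ ≤ |ν| * (Cc * (|δ| * Cp)) := by gcongr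
        _ = _ := by ring
    calc _ ≤ |iteratedDeriv (α.1 + 1) chi t * (δ * iteratedDeriv α.2.1 (prof c) y)| +
          |ν * (iteratedDeriv α.1 chi t * (δ * iteratedDeriv (α.2.1 + 2) (prof c) y))| :=
          abs_sub _ _
      _ ≤ (Cc * Cp) * |δ| + |ν| * (Cc * Cp) * |δ| := add_le_add a1 a2
      _ = (Cc * Cp + |ν| * (Cc * Cp)) * |δ| := by ring
      _ ≤ (Cb + (Cc * Cp + |ν| * (Cc * Cp))) * (|r| + |δ|) := by
        refine mul_le_mul ?_ ?_ hδ (by positivity)
        · linarith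
        · linarith
  · rw [abs_zero]; exact hz
  · rw [abs_zero]; exact hz

/-! ## The family -/

/-- The amplitude of the transient. -/
def ampS (κ : Frac) (s : ℕ) (w : List ℕ) : Frac :=
  Frac.mul κ (Frac.pow (1, 1) (encode w + s))

theorem fracVal_half_pow (n : ℕ) : fracVal (Frac.pow (1, 1) n) = (1 / 2) ^ n := by
  rw [Frac.val_pow]
  congr 1
  simp [fracVal]
  norm_num

theorem fracVal_ampS (κ : Frac) (s : ℕ) (w : List ℕ) :
    fracVal (ampS κ s w) = fracVal κ * (1 / 2) ^ (encode w + s) := by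
  unfold ampS
  rw [Frac.val_mul, fracVal_half_pow]

theorem ucr_ampS (κ : Frac) (s : ℕ) :
    UCR (fun P : Machine × List ℕ => fracVal (ampS κ s P.2)) := by
  refine ucr_frac (Primrec.to_comp ?_)
  exact Frac.prim_mul.comp (Primrec.const κ)
    (Frac.prim_pow.comp (Primrec.const (1, 1))
      (Primrec.nat_add.comp (Primrec.encode.comp Primrec.snd) (Primrec.const s)))

/-- The profile of the machine. -/
noncomputable def psiS (s : ℕ) (M : Machine) (x : ℝ) : ℝ := (1 / 2) ^ (s + 3) * prof (coefH s M) x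

theorem psiS_periodic (s : ℕ) (M : Machine) : Function.Periodic (psiS s M) 1 := fun x => by
  unfold psiS
  rw [prof_periodic]

theorem psiS_contDiff (s : ℕ) (M : Machine) : ContDiff ℝ ∞ (psiS s M) :=
  contDiff_const.mul (prof_contDiff (abs_coefH_le s M))

theorem psiS_nonneg (s : ℕ) (M : Machine) (x : ℝ) : 0 ≤ psiS s M x :=
  mul_nonneg (by positivity) (prof_nonneg (coefH_nonneg s M) x)

theorem ucr_psiS (hb : BumpUCR) (s : ℕ) :
    UCR (fun q : (Machine × List ℕ) × ℕ × Frac =>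
      iteratedDeriv q.2.1 (psiS s q.1.1) (fracVal q.2.2)) := by
  have h1 := ucr_prof hb (abs_coefH_le s) (ucr_coefH s)
  have h2 : UCR (fun q : (Machine × List ℕ) × ℕ × Frac =>
      iteratedDeriv q.2.1 (prof (coefH s q.1.1)) (fracVal q.2.2)) :=
    UCR.comp (F := fun q : Machine × ℕ × Frac =>
      iteratedDeriv q.2.1 (prof (coefH s q.1)) (fracVal q.2.2)) h1
      (g := fun q : (Machine × List ℕ) × ℕ × Frac => (q.1.1, q.2))
      ((Primrec.fst.comp Primrec.fst).pair Primrec.snd).to_comp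
  have h3 : UCR (fun _ : (Machine × List ℕ) × ℕ × Frac => fracVal (Frac.pow (1, 1) (s + 3))) :=
    ucr_frac (Computable.const _)
  refine (h3.mul h2).congr fun q => ?_
  rw [fracVal_half_pow]
  exact (iteratedDeriv_amp _ _ _ _).symm

theorem psiS_value {κ : Frac} (h1 : 1 / 2 < fracVal κ * dispI)
    (h2 : fracVal κ * dispI < 1) (s : ℕ) (M : Machine) (w : List ℕ) :
    psiS s M (fracVal (ampS κ s w) * dispI) =
      (1 / 2) ^ (s + 3) * (rec1 (M, w) / ((encode w + s).factorial : ℝ) *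
        bump (2 * (fracVal κ * dispI) - 1)) := by
  set N := encode w + s with hN
  have hp : (2 : ℝ) ^ N * (1 / 2) ^ N = 1 := by
    rw [← mul_pow]; norm_num
  have e1 : (2 : ℝ) ^ (N + 1) * (fracVal (ampS κ s w) * dispI) = 2 * (fracVal κ * dispI) := by
    rw [fracVal_ampS, ← hN]
    have : (2 : ℝ) ^ (N + 1) * (fracVal κ * (1 / 2) ^ N * dispI) =
        2 * (fracVal κ * dispI) * ((2 : ℝ) ^ N * (1 / 2) ^ N) := by ring
    rw [this, hp, mul_one]
  have e2 : (2 : ℝ) ^ N * (fracVal (ampS κ s w) * dispI) = fracVal κ * dispI := by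
    rw [fracVal_ampS, ← hN]
    have : (2 : ℝ) ^ N * (fracVal κ * (1 / 2) ^ N * dispI) =
        (fracVal κ * dispI) * ((2 : ℝ) ^ N * (1 / 2) ^ N) := by ring
    rw [this, hp, mul_one]
  unfold psiS
  rw [prof_shell (abs_coefH_le s M) N (by rw [e1]; linarith) (by rw [e2]; exact h2), e1,
    coefH_word]

/-- The threshold: `(n + 3/2)` times the reciprocal of one plus the halting time exceeds one
exactly when the machine halts within `n` steps. -/
theorem rec1_iff (M : Machine) (w : List ℕ) (n : ℕ) :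
    1 < ((n : ℝ) + 3 / 2) * rec1 (M, w) ↔
      ∃ k ≤ n, ((step M)^[k] (0, Turing.Tape.mk₁ w)).1 ∈ M.2 := by
  have hh : ∀ k, TM.haltAt (M, w) k = true ↔
      ((step M)^[k] (0, Turing.Tape.mk₁ w)).1 ∈ M.2 := fun k => by
    simp [TM.haltAt]
  have hn : (0 : ℝ) ≤ n := Nat.cast_nonneg n
  constructor
  · intro h
    by_contra hcon
    push Not at hcon
    by_cases hex : ∃ k, TM.haltAt (M, w) k = true
    · obtain ⟨k, hk⟩ := hex
      obtain ⟨l, _, hl1, hl2⟩ := exists_least hk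
      rw [rec1_of_least hl1 hl2, mul_one_div, lt_div_iff₀ (by positivity), one_mul] at h
      have hl : n < l := by
        by_contra hle
        exact hcon l (by omega) ((hh l).1 hl1)
      have : (n : ℝ) + 1 ≤ l := by exact_mod_cast hl
      linarith
    · push Not at hex
      rw [rec1_of_not fun k => by simpa using hex k, mul_zero] at h
      linarith
  · rintro ⟨k, hk, hkm⟩
    obtain ⟨l, hlk, hl1, hl2⟩ := exists_least ((hh k).2 hkm)
    rw [rec1_of_least hl1 hl2, mul_one_div, lt_div_iff₀ (by positivity), one_mul]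
    have : (l : ℝ) ≤ n := by exact_mod_cast hlk.trans hk
    linarith

/-- Steady flows with small forces, which read off the halting time. -/
theorem steady (ν : ℝ) (hν : 0 < ν) (hcν : IsComputableReal ν) (ε : ℝ) (hε : 0 < ε) (m : ℕ) :
    ∃ (A B : List ℕ → ℝ) (F V : Machine → T3 → E3) (compile : Machine × List ℕ → Nat.Partrec.Code)
      (f u : Machine × List ℕ → ℝ → T3 → E3),
      IsForceCompiler compile f ∧
      (∀ P i α, α.1 + α.2.1 + α.2.2.1 + α.2.2.2 ≤ m → ∀ t x,
        |mixed α (fun s y => f P s (proj y) i) t x| ≤ ε) ∧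
      ∀ (M : Machine) (w : List ℕ),
        (∀ t, 2 ≤ t → f (M, w) t = F M ∧ u (M, w) t = V M) ∧
        IsGlobalSmoothSolution ν (f (M, w)) (u (M, w)) (fun _ _ => 0) ∧
        (∀ T : ℝ, 0 < T → ∀ v q, IsClassicalSolution ν T (f (M, w)) v q →
          ∀ t ∈ Set.Icc 0 T, v t = u (M, w) t ∧ q t = fun _ => 0) ∧
        (∃ X, IsTrajectory (u (M, w)) 0 X) ∧
        ∀ X, IsTrajectory (u (M, w)) 0 X → ∀ n : ℕ,
          ((∃ t : ℝ, 0 ≤ t ∧ t ≤ A w + B w * n ∧ proj (X t) ∈ openSet) ↔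
            ∃ k ≤ n, ((step M)^[k] (0, Turing.Tape.mk₁ w)).1 ∈ M.2) := by
  obtain ⟨κ, hκ1, hκ2⟩ := exists_kappa
  have hI := dispI_pos
  have hκ0 : 0 < fracVal κ := by
    by_contra hcon
    have := mul_nonpos_of_nonpos_of_nonneg (not_lt.1 hcon) hI.le
    linarith
  obtain ⟨C, hC0, hC⟩ := mixedS_bound ν m
  -- the scale
  obtain ⟨s, hs⟩ : ∃ s : ℕ, C * ((fracVal κ + 1) * (1 / 2) ^ s) ≤ ε := by
    have h1 : Tendsto (fun s : ℕ => C * ((fracVal κ + 1) * (1 / 2 : ℝ) ^ s)) atTop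
        (𝓝 (C * ((fracVal κ + 1) * 0))) :=
      ((tendsto_pow_atTop_nhds_zero_of_lt_one (by norm_num) (by norm_num)).const_mul _).const_mul _
    rw [mul_zero, mul_zero] at h1
    obtain ⟨s, hs⟩ := (h1.eventually (gt_mem_nhds hε)).exists
    exact ⟨s, hs.le⟩
  have hb : BumpUCR := bump_ucr
  have hmix : ∀ (P : Machine × List ℕ) (i : Fin 3) (α : ℕ × ℕ × ℕ × ℕ) (t : ℝ) (x : E3),
      mixed α (fun s' y => frcS ν (fracVal (ampS κ s P.2)) (psiS s P.1) s' (proj y) i) t x =
        mixedS ν (fracVal (ampS κ s P.2)) (psiS s P.1) i α t (x 0) := fun P i α t x =>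
    mixed_frcS (psiS_periodic s P.1) (psiS_contDiff s P.1) i α t x
  obtain ⟨compile, hcomp, hcmp⟩ := exists_compilerS (A := Machine × List ℕ) hb hcν (ucr_ampS κ s)
    (ψ := fun P => psiS s P.1) (ucr_psiS hb s)
    (f := fun P => frcS ν (fracVal (ampS κ s P.2)) (psiS s P.1)) hmix
  set b : ℝ := bump (2 * (fracVal κ * dispI) - 1) with hbdef
  have hb0 : 0 < b := bump_pos (by linarith) (by linarith)
  have hb1 : b ≤ 1 := bump_le_one _
  set δ : ℝ := (1 / 2) ^ (s + 3) with hδ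
  have hδ0 : 0 < δ := by positivity
  have hδ1 : δ ≤ 1 / 8 := by
    rw [hδ, pow_add]
    have : (1 / 2 : ℝ) ^ s ≤ 1 := pow_le_one₀ (by norm_num) (by norm_num)
    nlinarith
  -- the unit of time
  set Y : List ℕ → ℝ := fun w => ((encode w + s).factorial : ℝ) / (4 * δ * b) with hY
  have hYbig : ∀ w, 2 ≤ Y w := fun w => by
    have hf : (1 : ℝ) ≤ ((encode w + s).factorial : ℝ) := by exact_mod_cast Nat.factorial_pos _
    rw [hY]
    simp only []
    rw [le_div_iff₀ (by positivity)]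
    have : δ * b ≤ 1 / 8 * 1 := mul_le_mul hδ1 hb1 hb0.le (by norm_num)
    nlinarith
  have hfrc2 : ∀ (P : Machine × List ℕ) (t : ℝ), 2 ≤ t → ∀ θ,
      frcS ν (fracVal (ampS κ s P.2)) (psiS s P.1) t θ =
        ![0, - (ν * (dispI * circ (deriv (deriv (psiS s P.1))) (θ 0))), 0] := by
    intro P t ht θ
    unfold frcS
    rw [deriv_chi_of_two_le ht, chi_of_two_le ht, deriv_bump_of_one_le (by linarith)]
    simp
  refine ⟨fun w => 2 + (3 / 2 * Y w - dispS 2) / dispI, fun w => Y w / dispI,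
    fun M θ => ![0, - (ν * (dispI * circ (deriv (deriv (psiS s M))) (θ 0))), 0],
    fun M θ => ![0, dispI * circ (psiS s M) (θ 0), 0], compile,
    fun P => frcS ν (fracVal (ampS κ s P.2)) (psiS s P.1),
    fun P => velS (fracVal (ampS κ s P.2)) (psiS s P.1), ?_, ?_, ?_⟩
  · refine ⟨hcomp, fun P i => frcS_isSmooth (psiS_periodic s P.1) (psiS_contDiff s P.1) i, hcmp,
      ⟨2, by norm_num, fun M => ⟨⟨1, one_pos, fun w t ht x => ?_⟩, fun w w' t ht x => ?_⟩⟩⟩
    · rw [hfrc2 (M, w) t ht, hfrc2 (M, w) (t + 1) (by linarith)]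
    · rw [hfrc2 (M, w) t ht, hfrc2 (M, w') t ht]
  · intro P i α hα t x
    rw [hmix]
    refine (hC _ ((1 / 2) ^ (s + 3)) (coefH s P.1) (abs_coefH_le s P.1) i α hα t (x 0)).trans ?_
    refine le_trans (mul_le_mul_of_nonneg_left ?_ hC0) hs
    rw [fracVal_ampS, abs_mul, abs_of_pos hκ0, abs_of_nonneg (by positivity),
      abs_of_nonneg (by positivity), add_mul, one_mul]
    refine add_le_add (mul_le_mul_of_nonneg_left ?_ hκ0.le) ?_
    · exact pow_le_pow_of_le_one (by norm_num) (by norm_num) (by omega)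
    · exact pow_le_pow_of_le_one (by norm_num) (by norm_num) (by omega)
  · intro M w
    refine ⟨fun t ht => ⟨funext fun θ => hfrc2 (M, w) t ht θ, funext fun θ => ?_⟩, ?_, ?_, ?_, ?_⟩
    · show velS _ _ t θ = _
      unfold velS
      rw [chi_of_two_le ht, bump_of_one_le (by linarith), zero_mul]
    · exact ⟨fun i => velS_isSmooth (psiS_periodic s M) (psiS_contDiff s M) i, contDiff_const,
        fun T hT => velS_classical (psiS_periodic s M) (psiS_contDiff s M) hT⟩
    · intro T hT v q hv t ht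
      exact IsClassicalSolution.unique hν.le hT
        (velS_classical (psiS_periodic s M) (psiS_contDiff s M) hT) hv t ht
    · exact ⟨_, trajS_isTrajectory _ (psiS_periodic s M)⟩
    · intro X hX n
      have hn : (0 : ℝ) ≤ n := Nat.cast_nonneg n
      have hd2 : dispS 2 ≤ 2 * dispI := dispS_two_le
      have hI1 := dispI_lt_one
      have hYw := hYbig w
      -- the time
      have hτ : 2 + (3 / 2 * Y w - dispS 2) / dispI + Y w / dispI * n =
          2 + ((n + 3 / 2) * Y w - dispS 2) / dispI := by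
        field_simp
        ring
      have hx : 0 ≤ ((n + 3 / 2) * Y w - dispS 2) / dispI := by
        refine div_nonneg ?_ hI.le
        nlinarith [mul_nonneg hn (by linarith : (0 : ℝ) ≤ Y w)]
      have hdisp : dispS (2 + ((n + 3 / 2) * Y w - dispS 2) / dispI) = (n + 3 / 2) * Y w := by
        rw [dispS_of_two_le (by linarith)]
        field_simp
        ring
      have h := trajS_enters_iff (psiS_periodic s M) (psiS_nonneg s M) hX
        (τ := 2 + ((n + 3 / 2) * Y w - dispS 2) / dispI) (by linarith)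
      simp only []
      rw [hτ, h, hdisp, psiS_value hκ1 hκ2, ← hbdef, ← hδ, ← rec1_iff M w n]
      have hf0 : ((encode w + s).factorial : ℝ) ≠ 0 := by
        exact_mod_cast Nat.factorial_ne_zero _
      have e : ((n : ℝ) + 3 / 2) * Y w *
          (δ * (rec1 (M, w) / ((encode w + s).factorial : ℝ) * b)) =
          ((n : ℝ) + 3 / 2) * rec1 (M, w) / 4 := by
        rw [hY]
        field_simp
      rw [e]
      constructor
      · intro h'
        linarith
      · intro h'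
        linarith

end Vale.Agent.P113.H435
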