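import Vale.Agent.P113.Bdl.B3

/-!
# P113: profiles with arbitrary coefficients
-/

namespace Vale.Agent.P113.H435

open Vale.Agent.P113
open scoped ContDiff Topology
open Set Filter Encodable

/-- The profile with coefficients `c`. -/
noncomputable def prof (c : ℕ → ℝ) : ℝ → ℝ := per (phi bump c)

variable {c : ℕ → ℝ}

theorem prof_periodic (c : ℕ → ℝ) : Function.Periodic (prof c) 1 := per_periodic _

theorem prof_contDiff (hc : ∀ n, |c n| ≤ 1) : ContDiff ℝ ∞ (prof c) :=
  per_contDiff (bumpy_phi bumpy_bump hc).smooth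
    (bumpy_phi bumpy_bump hc).left (bumpy_phi bumpy_bump hc).right

theorem prof_nonneg (h0 : ∀ n, 0 ≤ c n) (x : ℝ) : 0 ≤ prof c x := by
  unfold prof per phi
  exact tsum_nonneg fun n => mul_nonneg (div_nonneg (h0 n) (Nat.cast_nonneg _))
    (bump_nonneg _)

theorem iteratedDeriv_prof (hc : ∀ n, |c n| ≤ 1) (k : ℕ) (x : ℝ) :
    iteratedDeriv k (prof c) x = iteratedDeriv k (phi bump c) (Int.fract x) := by
  have h := bumpy_phi bumpy_bump hc
  unfold prof
  rw [iteratedDeriv_per h.smooth h.left h.right]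
  rfl

/-- The value of the profile in the dyadic shell number `n`. -/
theorem prof_shell (hc : ∀ n, |c n| ≤ 1) (n : ℕ) {x : ℝ}
    (h1 : 1 < 2 ^ (n + 1) * x) (h2 : 2 ^ n * x < 1) :
    prof c x = c n / (n.factorial : ℝ) * bump (2 ^ (n + 1) * x - 1) := by
  have hx : 0 < x := by
    by_contra h
    push Not at h
    have : (2 : ℝ) ^ (n + 1) * x ≤ 0 := mul_nonpos_of_nonneg_of_nonpos (by positivity) h
    linarith
  have hx1 : x < 1 := by
    have : (1 : ℝ) * x ≤ 2 ^ n * x :=
      mul_le_mul_of_nonneg_right (one_le_pow₀ (by norm_num)) hx.le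
    linarith
  have hf : Int.fract x = x := Int.fract_eq_self.2 ⟨hx.le, hx1⟩
  unfold prof per
  rw [hf, phi_of_shell bumpy_bump hc n h1.le h2.le]

/-- The derivatives of the profiles are bounded, uniformly in the coefficients. -/
theorem prof_bound (k : ℕ) : ∃ C : ℝ, 0 ≤ C ∧ ∀ c : ℕ → ℝ, (∀ n, |c n| ≤ 1) →
    ∀ x, |iteratedDeriv k (prof c) x| ≤ C := by
  obtain ⟨C, hC0, hC⟩ := bumpy_bump.exists_bound k
  have hs := summable_bound C k
  refine ⟨∑' n : ℕ, C * ((2 : ℝ) ^ (n + 1)) ^ k / (n.factorial : ℝ),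
    tsum_nonneg fun n => by positivity, fun c hc x => ?_⟩
  rw [iteratedDeriv_prof hc, iteratedDeriv_phi bumpy_bump hc, ← Real.norm_eq_abs]
  refine tsum_of_norm_bounded hs.hasSum fun n => ?_
  have h := norm_iteratedFDeriv_term_le bumpy_bump hc k hC n (Int.fract x)
  rwa [norm_iteratedFDeriv_eq_norm_iteratedDeriv, iteratedDeriv_term bumpy_bump] at h

theorem iteratedDeriv_prof_frac (hc : ∀ n, |c n| ≤ 1) (k : ℕ) (x : Frac) :
    iteratedDeriv k (prof c) (fracVal x) =
      bif decide (fractNum x = 0) then 0 else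
        c (shell (fractNum x, x.2)) *
          fracVal (((2 ^ (shell (fractNum x, x.2) + 1)) ^ k : ℕ),
            (shell (fractNum x, x.2)).factorial - 1) *
          iteratedDeriv k bump
            (fracVal (((2 ^ (shell (fractNum x, x.2) + 1) * fractNum x : ℕ) : ℤ) -
              ((x.2 + 1 : ℕ) : ℤ), x.2)) := by
  have hB := bumpy_phi bumpy_bump hc
  rw [iteratedDeriv_prof hc, ← fracVal_fractNum]
  have hlt := fractNum_lt x
  by_cases h0 : fractNum x = 0
  · simp only [h0, decide_true, cond_true]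
    exact hB.iteratedDeriv_left k (by simp [fracVal])
  · simp only [h0, decide_false, cond_false]
    have hpos : 0 < fractNum x := Nat.pos_of_ne_zero h0
    set a := fractNum x with ha
    set n := shell (a, x.2) with hn
    have h1 : 2 ^ n * a ≤ x.2 := shell_le (by omega)
    have h2 : x.2 < 2 ^ (n + 1) * a := lt_shell hpos
    have hq : (0 : ℝ) < (x.2 : ℝ) + 1 := by positivity
    have hval : fracVal ((a : ℤ), x.2) = (a : ℝ) / ((x.2 : ℝ) + 1) := by simp [fracVal]
    have h1' : (2 : ℝ) ^ n * fracVal ((a : ℤ), x.2) ≤ 1 := by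
      rw [hval, ← mul_div_assoc, div_le_one hq]
      have : ((2 ^ n * a : ℕ) : ℝ) ≤ (x.2 : ℝ) := by exact_mod_cast h1
      push_cast at this
      linarith
    have h2' : (1 : ℝ) ≤ 2 ^ (n + 1) * fracVal ((a : ℤ), x.2) := by
      rw [hval, ← mul_div_assoc, one_le_div hq]
      have : ((x.2 + 1 : ℕ) : ℝ) ≤ ((2 ^ (n + 1) * a : ℕ) : ℝ) := by exact_mod_cast h2
      push_cast at this
      linarith
    rw [iteratedDeriv_phi_of_shell bumpy_bump hc k n h2' h1']
    have e1 : (2 : ℝ) ^ (n + 1) * fracVal ((a : ℤ), x.2) - 1 =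
        fracVal (((2 ^ (n + 1) * a : ℕ) : ℤ) - ((x.2 + 1 : ℕ) : ℤ), x.2) := by
      rw [hval]
      unfold fracVal
      push_cast
      field_simp
    have e2 : fracVal (((2 ^ (n + 1)) ^ k : ℕ), n.factorial - 1) =
        ((2 : ℝ) ^ (n + 1)) ^ k / (n.factorial : ℝ) := by
      unfold fracVal
      have hf : 1 ≤ n.factorial := Nat.factorial_pos n
      have : ((n.factorial - 1 : ℕ) : ℝ) + 1 = (n.factorial : ℝ) := by
        rw [Nat.cast_sub hf]; simp
      rw [this]
      push_cast
      rfl
    rw [e1, e2]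
    ring

/-- The derivatives of the profiles at rational points are uniformly computable. -/
theorem ucr_prof (hbump : BumpUCR) {A : Type*} [Primcodable A] {c : A → ℕ → ℝ}
    (hc : ∀ a n, |c a n| ≤ 1) (hu : UCR (fun p : A × ℕ => c p.1 p.2)) :
    UCR (fun q : A × ℕ × Frac => iteratedDeriv q.2.1 (prof (c q.1)) (fracVal q.2.2)) := by
  have hnum : Primrec (fun q : A × ℕ × Frac => fractNum q.2.2) :=
    prim_fractNum.comp (Primrec.snd.comp Primrec.snd)
  have hden : Primrec (fun q : A × ℕ × Frac => q.2.2.2) :=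
    Primrec.snd.comp (Primrec.snd.comp Primrec.snd)
  have hsh : Primrec (fun q : A × ℕ × Frac => shell (fractNum q.2.2, q.2.2.2)) :=
    prim_shell.comp (hnum.pair hden)
  have hk : Primrec (fun q : A × ℕ × Frac => q.2.1) := Primrec.fst.comp Primrec.snd
  have hpow : Primrec (fun q : A × ℕ × Frac => 2 ^ (shell (fractNum q.2.2, q.2.2.2) + 1)) :=
    prim_nat_pow.comp (Primrec.const 2) (Primrec.succ.comp hsh)
  have u1 : UCR (fun q : A × ℕ × Frac => c q.1 (shell (fractNum q.2.2, q.2.2.2))) :=
    UCR.comp (F := fun p : A × ℕ => c p.1 p.2) hu (Primrec.fst.pair hsh).to_comp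
  have u2 : UCR (fun q : A × ℕ × Frac =>
      fracVal (((2 ^ (shell (fractNum q.2.2, q.2.2.2) + 1)) ^ q.2.1 : ℕ),
            (shell (fractNum q.2.2, q.2.2.2)).factorial - 1)) := by
    refine ucr_frac (Primrec.to_comp ?_)
    exact (prim_natCast.comp (prim_nat_pow.comp hpow hk)).pair
      (Primrec.nat_sub.comp (prim_factorial.comp hsh) (Primrec.const 1))
  have u3 : UCR (fun q : A × ℕ × Frac => iteratedDeriv q.2.1 bump
            (fracVal (((2 ^ (shell (fractNum q.2.2, q.2.2.2) + 1) * fractNum q.2.2 : ℕ) : ℤ) -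
              ((q.2.2.2 + 1 : ℕ) : ℤ), q.2.2.2))) := by
    refine UCR.comp (F := fun q : ℕ × Frac => iteratedDeriv q.1 bump (fracVal q.2)) hbump
      (g := fun q : A × ℕ × Frac => (q.2.1,
      ((((2 ^ (shell (fractNum q.2.2, q.2.2.2) + 1) * fractNum q.2.2 : ℕ) : ℤ) -
              ((q.2.2.2 + 1 : ℕ) : ℤ), q.2.2.2) : Frac))) (Primrec.to_comp ?_)
    refine hk.pair (Primrec.pair ?_ hden)
    exact prim_subNat.comp (Primrec.nat_mul.comp hpow hnum) (Primrec.succ.comp hden)
  have hdec : Computable (fun q : A × ℕ × Frac => decide (fractNum q.2.2 = 0)) := by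
    have : PrimrecPred (fun q : A × ℕ × Frac => fractNum q.2.2 = 0) :=
      Primrec.eq.comp hnum (Primrec.const 0)
    exact this.decide.to_comp
  refine UCR.congr (UCR.cond hdec (UCR.on ucr_zero _) (UCR.on ((u1.mul u2).mul u3) _)) ?_
  rintro ⟨M, k, x⟩
  exact (iteratedDeriv_prof_frac (hc M) k x).symm

/-! ## The reciprocal of the halting time -/

/-- The least `k < N` with `haltAt P k`, plus one; `0` if there is none. -/
def firstH (P : Machine × List ℕ) (N : ℕ) : ℕ :=
  Nat.rec (motive := fun _ => ℕ) 0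
    (fun k r => if r = 0 then (if TM.haltAt P k then k + 1 else 0) else r) N

theorem firstH_succ (P : Machine × List ℕ) (N : ℕ) :
    firstH P (N + 1) =
      if firstH P N = 0 then (if TM.haltAt P N then N + 1 else 0) else firstH P N := rfl

theorem firstH_eq_zero {P : Machine × List ℕ} {N : ℕ} :
    firstH P N = 0 ↔ ∀ k < N, TM.haltAt P k = false := by
  induction N with
  | zero => simp [firstH]
  | succ N ih =>
    rw [firstH_succ]
    by_cases h : firstH P N = 0
    · rw [if_pos h]
      have h' := ih.1 h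
      constructor
      · intro h2 k hk
        rcases Nat.lt_succ_iff_lt_or_eq.1 hk with h3 | h3
        · exact h' k h3
        · subst h3
          by_contra h4
          rw [Bool.not_eq_false] at h4
          rw [if_pos h4] at h2
          omega
      · intro h2
        rw [h2 N (Nat.lt_succ_self N)]
        simp
    · rw [if_neg h]
      constructor
      · intro h2
        exact absurd h2 h
      · intro h2
        exact absurd (ih.2 fun k hk => h2 k (Nat.lt_succ_of_lt hk)) h

theorem firstH_of_least {P : Machine × List ℕ} {h : ℕ} (h1 : TM.haltAt P h = true)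
    (h2 : ∀ k < h, TM.haltAt P k = false) {N : ℕ} (hN : h < N) : firstH P N = h + 1 := by
  induction N with
  | zero => omega
  | succ N ih =>
    rw [firstH_succ]
    rcases Nat.lt_succ_iff_lt_or_eq.1 hN with h3 | h3
    · rw [ih h3, if_neg (by omega)]
    · subst h3
      rw [if_pos (firstH_eq_zero.2 h2), if_pos h1]

theorem primrec_firstH : Primrec₂ firstH := by
  have h : Primrec (fun p : (Machine × List ℕ) × (ℕ × ℕ) =>
      if p.2.2 = 0 then (if TM.haltAt p.1 p.2.1 = true then p.2.1 + 1 else 0) else p.2.2) := by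
    refine Primrec.ite (Primrec.eq.comp (Primrec.snd.comp Primrec.snd) (Primrec.const 0)) ?_
      (Primrec.snd.comp Primrec.snd)
    refine Primrec.ite (Primrec.eq.comp (TM.primrec_haltAt.comp Primrec.fst
      (Primrec.fst.comp Primrec.snd)) (Primrec.const true)) ?_ (Primrec.const 0)
    exact Primrec.succ.comp (Primrec.fst.comp Primrec.snd)
  have h' : Primrec₂ (fun (P : Machine × List ℕ) (q : ℕ × ℕ) =>
      if q.2 = 0 then (if TM.haltAt P q.1 = true then q.1 + 1 else 0) else q.2) := h
  exact Primrec.nat_rec (f := fun _ : Machine × List ℕ => (0 : ℕ)) (Primrec.const 0) h'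

open Classical in
/-- The reciprocal of one plus the halting time. -/
noncomputable def rec1 (P : Machine × List ℕ) : ℝ :=
  if h : ∃ n, TM.haltAt P n = true then 1 / ((Nat.find h : ℝ) + 1) else 0

theorem rec1_of_least {P : Machine × List ℕ} {h : ℕ} (h1 : TM.haltAt P h = true)
    (h2 : ∀ k < h, TM.haltAt P k = false) : rec1 P = 1 / ((h : ℝ) + 1) := by
  classical
  have hex : ∃ n, TM.haltAt P n = true := ⟨h, h1⟩
  unfold rec1
  rw [dif_pos hex]
  have : Nat.find hex = h := by
    rw [Nat.find_eq_iff]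
    exact ⟨h1, fun n hn => by rw [h2 n hn]; simp⟩
  rw [this]

theorem rec1_of_not {P : Machine × List ℕ} (h : ∀ n, TM.haltAt P n = false) : rec1 P = 0 := by
  unfold rec1
  rw [dif_neg]
  rintro ⟨n, hn⟩
  rw [h n] at hn
  exact absurd hn (by simp)

theorem exists_least {P : Machine × List ℕ} {n : ℕ} (hn : TM.haltAt P n = true) :
    ∃ h ≤ n, TM.haltAt P h = true ∧ ∀ k < h, TM.haltAt P k = false := by
  classical
  have hex : ∃ n, TM.haltAt P n = true := ⟨n, hn⟩
  exact ⟨Nat.find hex, Nat.find_min' hex hn, Nat.find_spec hex, fun k hk => by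
    simpa using Nat.find_min hex hk⟩

theorem rec1_nonneg (P : Machine × List ℕ) : 0 ≤ rec1 P := by
  unfold rec1
  split_ifs
  · positivity
  · exact le_rfl

theorem rec1_le (P : Machine × List ℕ) : rec1 P ≤ 1 := by
  unfold rec1
  split_ifs with h
  · rw [div_le_one (by positivity)]
    have : (0 : ℝ) ≤ (Nat.find h : ℝ) := Nat.cast_nonneg _
    linarith
  · exact zero_le_one

/-- The approximation of `rec1` by a bounded search. -/
def recA (p : (Machine × List ℕ) × ℕ) : Frac :=
  if firstH p.1 p.2 = 0 then (0, 0) else (1, firstH p.1 p.2 - 1)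

theorem recA_error (P : Machine × List ℕ) (N : ℕ) :
    |rec1 P - fracVal (recA (P, N))| ≤ 1 / ((N : ℝ) + 1) := by
  unfold recA
  by_cases h : ∃ n, TM.haltAt P n = true
  · obtain ⟨n, hn⟩ := h
    obtain ⟨h, _, h1, h2⟩ := exists_least hn
    rw [rec1_of_least h1 h2]
    by_cases hN : h < N
    · have h3 := firstH_of_least h1 h2 hN
      simp only [h3]
      rw [if_neg (by omega)]
      have : fracVal ((1 : ℤ), h + 1 - 1) = 1 / ((h : ℝ) + 1) := by
        simp [fracVal]
      rw [this, sub_self, abs_zero]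
      positivity
    · have h3 : firstH P N = 0 := firstH_eq_zero.2 fun k hk => h2 k (by omega)
      simp only [h3, if_true]
      have hz : fracVal ((0 : ℤ), 0) = 0 := by simp [fracVal]
      rw [hz, sub_zero, abs_of_nonneg (by positivity)]
      have : (N : ℝ) ≤ h := by exact_mod_cast not_lt.1 hN
      exact one_div_le_one_div_of_le (by positivity) (by linarith)
  · push Not at h
    have h' : ∀ n, TM.haltAt P n = false := fun n => by simpa using h n
    have h3 : firstH P N = 0 := firstH_eq_zero.2 fun k _ => h' k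
    rw [rec1_of_not h']
    simp only [h3, if_true]
    have hz : fracVal ((0 : ℤ), 0) = 0 := by simp [fracVal]
    rw [hz, sub_zero, abs_zero]
    positivity

theorem computable_recA : Computable recA := by
  have hf : Primrec (fun p : (Machine × List ℕ) × ℕ => firstH p.1 p.2) :=
    primrec_firstH.comp Primrec.fst Primrec.snd
  have : Primrec recA := by
    unfold recA
    refine Primrec.ite (Primrec.eq.comp hf (Primrec.const 0)) (Primrec.const _) ?_
    exact (Primrec.const (1 : ℤ)).pair (Primrec.nat_sub.comp hf (Primrec.const 1))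
  exact this.to_comp

theorem ucr_rec1 : UCR rec1 := by
  refine ⟨recA, fun p => ((1 : ℤ), p.2), computable_recA,
    (Computable.const _).pair Computable.snd, ?_, ?_⟩
  · intro P _ n
    have : fracVal ((1 : ℤ), n) = 1 / ((n : ℝ) + 1) := by simp [fracVal]
    rw [this]
    exact recA_error P n
  · intro P _
    have := tendsto_one_div_add_atTop_nhds_zero_nat (𝕜 := ℝ)
    refine this.congr fun n => ?_
    simp [fracVal]

/-- The coefficients: the shell number `n` belongs to the word number `n - s`. -/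
noncomputable def coefH (s : ℕ) (M : Machine) (n : ℕ) : ℝ :=
  bif decide (s ≤ n) then rec1 (M, wordOf (n - s)) else 0

theorem coefH_nonneg (s : ℕ) (M : Machine) (n : ℕ) : 0 ≤ coefH s M n := by
  unfold coefH
  cases decide (s ≤ n)
  · exact le_rfl
  · exact rec1_nonneg _

theorem abs_coefH_le (s : ℕ) (M : Machine) (n : ℕ) : |coefH s M n| ≤ 1 := by
  rw [abs_of_nonneg (coefH_nonneg s M n)]
  unfold coefH
  cases decide (s ≤ n)
  · exact zero_le_one
  · exact rec1_le _

theorem coefH_word (s : ℕ) (M : Machine) (w : List ℕ) :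
    coefH s M (encode w + s) = rec1 (M, w) := by
  unfold coefH
  rw [decide_eq_true (by omega), Nat.add_sub_cancel, wordOf_encode]
  rfl

theorem ucr_coefH (s : ℕ) : UCR (fun p : Machine × ℕ => coefH s p.1 p.2) := by
  have h1 : UCR (fun p : Machine × ℕ => rec1 (p.1, wordOf (p.2 - s))) :=
    UCR.comp (F := rec1) ucr_rec1 (Primrec.fst.pair (prim_wordOf.comp
      (Primrec.nat_sub.comp Primrec.snd (Primrec.const s)))).to_comp
  have hc : Computable (fun p : Machine × ℕ => decide (s ≤ p.2)) := by
    have : PrimrecPred (fun p : Machine × ℕ => s ≤ p.2) :=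
      Primrec.nat_le.comp (Primrec.const s) Primrec.snd
    exact this.decide.to_comp
  exact UCR.cond hc (h1.on _) (UCR.on ucr_zero _)

end Vale.Agent.P113.H435
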