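import Vale.Agent.P113.H435.Step
import Vale.Agent.P113.H435.Prof

/-!
# P113: the mixed derivatives of the steady force
-/

namespace Vale.Agent.P113.H435

open Vale.Agent.P113
open scoped ContDiff Topology
open Set Filter Encodable

/-- The mixed derivatives of the components of the force. -/
noncomputable def mixedS (ν r : ℝ) (ψ : ℝ → ℝ) (i : Fin 3) (α : ℕ × ℕ × ℕ × ℕ) (t y : ℝ) : ℝ :=
  if i = 0 then
    if α.2.1 = 0 ∧ α.2.2.1 = 0 ∧ α.2.2.2 = 0 then iteratedDeriv (α.1 + 1) bump t * r else 0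
  else if i = 1 then
    if α.2.2.1 = 0 ∧ α.2.2.2 = 0 then
      iteratedDeriv (α.1 + 1) chi t * iteratedDeriv α.2.1 ψ y
        - ν * (iteratedDeriv α.1 chi t * iteratedDeriv (α.2.1 + 2) ψ y)
    else 0
  else 0

variable {A : Type*} [Primcodable A]

theorem ucr_mixedS (hb : BumpUCR) {ν : ℝ} (hν : IsComputableReal ν) {r : A → ℝ} (hr : UCR r)
    {ψ : A → ℝ → ℝ}
    (hψ : UCR (fun q : A × ℕ × Frac => iteratedDeriv q.2.1 (ψ q.1) (fracVal q.2.2))) :
    UCR (fun z : A × Query => mixedS ν (r z.1) (ψ z.1) z.2.1 z.2.2.1 (fracVal z.2.2.2.1)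
      (fracVal z.2.2.2.2.1)) := by
  -- coordinate projections
  have ca : Primrec (fun z : A × Query => z.1) := Primrec.fst
  have ci : Primrec (fun z : A × Query => z.2.1) := Primrec.fst.comp Primrec.snd
  have cα : Primrec (fun z : A × Query => z.2.2.1) :=
    Primrec.fst.comp (Primrec.snd.comp Primrec.snd)
  have c0 : Primrec (fun z : A × Query => z.2.2.1.1) := Primrec.fst.comp cα
  have c1 : Primrec (fun z : A × Query => z.2.2.1.2.1) :=
    Primrec.fst.comp (Primrec.snd.comp cα)
  have c2 : Primrec (fun z : A × Query => z.2.2.1.2.2.1) :=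
    Primrec.fst.comp (Primrec.snd.comp (Primrec.snd.comp cα))
  have c3 : Primrec (fun z : A × Query => z.2.2.1.2.2.2) :=
    Primrec.snd.comp (Primrec.snd.comp (Primrec.snd.comp cα))
  have cr : Primrec (fun z : A × Query => z.2.2.2) :=
    Primrec.snd.comp (Primrec.snd.comp Primrec.snd)
  have ct : Primrec (fun z : A × Query => z.2.2.2.1) := Primrec.fst.comp cr
  have cx : Primrec (fun z : A × Query => z.2.2.2.2.1) :=
    Primrec.fst.comp (Primrec.snd.comp cr)
  -- the boolean tests
  have t0 : Computable (fun z : A × Query => decide (z.2.1 = 0)) :=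
    (Primrec.eq.decide.comp ci (Primrec.const 0)).to_comp
  have t1 : Computable (fun z : A × Query => decide (z.2.1 = 1)) :=
    (Primrec.eq.decide.comp ci (Primrec.const 1)).to_comp
  have e1 : Primrec (fun z : A × Query => decide (z.2.2.1.2.1 = 0)) :=
    Primrec.eq.decide.comp c1 (Primrec.const 0)
  have e2 : Primrec (fun z : A × Query => decide (z.2.2.1.2.2.1 = 0)) :=
    Primrec.eq.decide.comp c2 (Primrec.const 0)
  have e3 : Primrec (fun z : A × Query => decide (z.2.2.1.2.2.2 = 0)) :=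
    Primrec.eq.decide.comp c3 (Primrec.const 0)
  have b0 : Computable (fun z : A × Query =>
      (decide (z.2.2.1.2.1 = 0) && (decide (z.2.2.1.2.2.1 = 0) && decide (z.2.2.1.2.2.2 = 0)))) :=
    (Primrec.and.comp e1 (Primrec.and.comp e2 e3)).to_comp
  have b1 : Computable (fun z : A × Query =>
      (decide (z.2.2.1.2.2.1 = 0) && decide (z.2.2.1.2.2.2 = 0))) :=
    (Primrec.and.comp e2 e3).to_comp
  -- the real factors
  have f0 : UCR (fun z : A × Query =>
      iteratedDeriv (z.2.2.1.1 + 1) bump (fracVal z.2.2.2.1) * r z.1) :=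
    (ucr_bump hb (Computable.succ.comp c0.to_comp) ct.to_comp).mul (hr.comp Computable.fst)
  have p0 : UCR (fun z : A × Query => iteratedDeriv z.2.2.1.1 chi (fracVal z.2.2.2.1)) :=
    ucr_chi hb c0.to_comp ct.to_comp
  have p1 : UCR (fun z : A × Query => iteratedDeriv (z.2.2.1.1 + 1) chi (fracVal z.2.2.2.1)) :=
    ucr_chi hb (Computable.succ.comp c0.to_comp) ct.to_comp
  have q0 : UCR (fun z : A × Query => iteratedDeriv z.2.2.1.2.1 (ψ z.1) (fracVal z.2.2.2.2.1)) :=
    UCR.comp (g := fun z : A × Query => (z.1, z.2.2.1.2.1, z.2.2.2.2.1)) hψ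
      (ca.pair (c1.pair cx)).to_comp
  have q2 : UCR (fun z : A × Query =>
      iteratedDeriv (z.2.2.1.2.1 + 2) (ψ z.1) (fracVal z.2.2.2.2.1)) :=
    UCR.comp (g := fun z : A × Query => (z.1, z.2.2.1.2.1 + 2, z.2.2.2.2.1)) hψ
      (ca.pair ((Primrec.nat_add.comp c1 (Primrec.const 2)).pair cx)).to_comp
  have f1 := (p1.mul q0).sub ((ucr_of_isComputableReal (α := A × Query) hν).mul (p0.mul q2))
  have hz : UCR (fun _ : A × Query => (0 : ℝ)) := ucr_zero
  have g0 := UCR.cond b0 (f0.on _) (hz.on _)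
  have g1 := UCR.cond b1 (f1.on _) (hz.on _)
  have g2 := UCR.cond t1 (g1.on _) (hz.on _)
  have g3 := UCR.cond t0 (g0.on _) (g2.on _)
  refine g3.congr ?_
  intro z
  unfold mixedS
  by_cases h0 : z.2.1 = 0
  · simp only [h0, decide_true, cond_true, if_true]
    by_cases h : z.2.2.1.2.1 = 0 ∧ z.2.2.1.2.2.1 = 0 ∧ z.2.2.1.2.2.2 = 0
    · rw [if_pos h]
      simp [h.1, h.2.1, h.2.2]
    · rw [if_neg h]
      have : (decide (z.2.2.1.2.1 = 0) && (decide (z.2.2.1.2.2.1 = 0) &&
          decide (z.2.2.1.2.2.2 = 0))) = false := by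
        simpa using h
      rw [this]
      rfl
  · simp only [h0, decide_false, cond_false, if_false]
    by_cases h1 : z.2.1 = 1
    · simp only [h1, decide_true, cond_true, if_true]
      by_cases h : z.2.2.1.2.2.1 = 0 ∧ z.2.2.1.2.2.2 = 0
      · rw [if_pos h]
        simp [h.1, h.2]
      · rw [if_neg h]
        have : (decide (z.2.2.1.2.2.1 = 0) && decide (z.2.2.1.2.2.2 = 0)) = false := by
          simpa using h
        rw [this]
        rfl
    · simp [h1]

/-- If all mixed derivatives of the force are given by `mixedS` with uniformly computable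
amplitude and profile, there is a computable compiler producing programs for the force. -/
theorem exists_compilerS (hb : BumpUCR) {ν : ℝ} (hν : IsComputableReal ν) {r : A → ℝ}
    (hr : UCR r) {ψ : A → ℝ → ℝ}
    (hψ : UCR (fun q : A × ℕ × Frac => iteratedDeriv q.2.1 (ψ q.1) (fracVal q.2.2)))
    {f : A → ℝ → T3 → E3}
    (hf : ∀ P i α t x, mixed α (fun s y => f P s (proj y) i) t x
      = mixedS ν (r P) (ψ P) i α t (x 0)) :
    ∃ compile : A → Nat.Partrec.Code, Computable compile ∧ ∀ P, Computes (compile P) (f P) := by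
  obtain ⟨G, hG, hG'⟩ := (ucr_mixedS hb hν hr hψ).exists_approx
  let H : A × (Fin 3 × (ℕ × ℕ × ℕ × ℕ) × Frac × (Frac × Frac × Frac) × Frac) → Frac :=
    fun z => G ((z.1, (z.2.1, z.2.2.1, z.2.2.2.1, z.2.2.2.2.1)), z.2.2.2.2.2)
  have hH : Computable H := by
    have c1 : Primrec (fun z : A × (Fin 3 × (ℕ × ℕ × ℕ × ℕ) × Frac × (Frac × Frac × Frac) × Frac)
        => z.2.2.2.2) :=
      Primrec.snd.comp (Primrec.snd.comp (Primrec.snd.comp Primrec.snd))
    have c2 : Primrec (fun z : A × (Fin 3 × (ℕ × ℕ × ℕ × ℕ) × Frac × (Frac × Frac × Frac) × Frac)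
        => ((z.1, (z.2.1, z.2.2.1, z.2.2.2.1, z.2.2.2.2.1)), z.2.2.2.2.2)) := by
      refine Primrec.pair (Primrec.pair Primrec.fst (Primrec.pair
        (Primrec.fst.comp Primrec.snd) (Primrec.pair
        (Primrec.fst.comp (Primrec.snd.comp Primrec.snd)) (Primrec.pair
        (Primrec.fst.comp (Primrec.snd.comp (Primrec.snd.comp Primrec.snd)))
        (Primrec.fst.comp c1))))) (Primrec.snd.comp c1)
    exact hG.comp c2.to_comp
  obtain ⟨compile, hc, hc'⟩ := exists_compile hH
  refine ⟨compile, hc, ?_⟩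
  intro P i α t x ε _ hε
  refine ⟨H (P, (i, α, t, x, ε)), ?_, ?_⟩
  · rw [hc']
    exact Part.mem_some _
  · rw [hf]
    exact hG' (P, (i, α, t, x)) ε hε

theorem mixed_frcS {ν r : ℝ} {ψ : ℝ → ℝ} (hψ : Function.Periodic ψ 1) (hs : ContDiff ℝ ∞ ψ)
    (i : Fin 3) (α : ℕ × ℕ × ℕ × ℕ) (t : ℝ) (x : E3) :
    mixed α (fun s y => frcS ν r ψ s (proj y) i) t x = mixedS ν r ψ i α t (x 0) := by
  obtain ⟨a, j1, j2, j3⟩ := α
  unfold mixed mixedS
  simp only [frcS_proj hψ]
  have hC : ∀ {g : ℝ → ℝ}, ContDiff ℝ ∞ g → ∀ (n : ℕ) y, ContDiffAt ℝ n g y := fun hg n y =>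
    (hg.of_le (by exact_mod_cast le_top)).contDiffAt
  fin_cases i
  · simp only [Fin.zero_eta, Matrix.cons_val_zero, iteratedDeriv_fun_const', if_true]
    by_cases h1 : j1 = 0
    · by_cases h2 : j2 = 0
      · by_cases h3 : j3 = 0
        · simp only [h1, h2, h3, if_true, and_self]
          rw [iteratedDeriv_mul_const_field, iteratedDeriv_succ']
        · simp [h1, h2, h3]
      · simp [h1, h2]
    · simp [h1]
  · simp only [Fin.mk_one, Matrix.cons_val_one, Matrix.cons_val_zero, iteratedDeriv_fun_const']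
    by_cases h2 : j2 = 0
    · by_cases h3 : j3 = 0
      · have hdd : ContDiff ℝ ∞ (deriv (deriv ψ)) := deriv_smooth (deriv_smooth hs)
        have e1 : ∀ s : ℝ, iteratedDeriv j1 (fun y₁ : ℝ =>
            deriv chi s * ψ y₁ - ν * (chi s * deriv (deriv ψ) y₁)) (x 0) =
            deriv chi s * iteratedDeriv j1 ψ (x 0)
              - ν * (chi s * iteratedDeriv (j1 + 2) ψ (x 0)) := by
          intro s
          have : (fun y₁ : ℝ => deriv chi s * ψ y₁ - ν * (chi s * deriv (deriv ψ) y₁)) =
              (fun y₁ : ℝ => deriv chi s * ψ y₁) -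
                (fun y₁ : ℝ => ν * (chi s * deriv (deriv ψ) y₁)) := rfl
          rw [this, iteratedDeriv_sub, iteratedDeriv_const_mul_field, iteratedDeriv_const_mul_field,
            iteratedDeriv_const_mul_field]
          · rw [iteratedDeriv_succ', iteratedDeriv_succ']
          · exact contDiffAt_const.mul (hC hs _ _)
          · exact contDiffAt_const.mul (contDiffAt_const.mul (hC hdd _ _))
        simp only [h2, h3, if_true, and_self, e1]
        simp only [one_ne_zero, if_false]
        have : (fun s : ℝ => deriv chi s * iteratedDeriv j1 ψ (x 0)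
              - ν * (chi s * iteratedDeriv (j1 + 2) ψ (x 0))) =
            (fun s : ℝ => deriv chi s * iteratedDeriv j1 ψ (x 0)) -
              (fun s : ℝ => ν * (chi s * iteratedDeriv (j1 + 2) ψ (x 0))) := rfl
        rw [this, iteratedDeriv_sub, iteratedDeriv_mul_const_field, iteratedDeriv_const_mul_field,
          iteratedDeriv_mul_const_field, ← iteratedDeriv_succ']
        · exact (hC (deriv_smooth chi_contDiff) _ _).mul contDiffAt_const
        · exact contDiffAt_const.mul ((hC chi_contDiff _ _).mul contDiffAt_const)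
      · simp [h2, h3]
    · simp [h2]
  · simp

end Vale.Agent.P113.H435
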