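import Vale.Agent.P113.H435.Flow

/-!
# P113: the switch and its derivatives are computable at rational points
-/

namespace Vale.Agent.P113.H435

open Vale.Agent.P113
open scoped ContDiff Topology
open Set Filter Encodable

section lim

variable {α : Type*} [Primcodable α]

theorem fracVal_one_div (n : ℕ) : fracVal (1, n) = 1 / ((n : ℝ) + 1) := by
  simp [fracVal]

theorem fracVal_one_div_pos (n : ℕ) : 0 < fracVal (1, n) := by
  rw [fracVal_one_div]; positivity

/-- A limit, with a computable rate, of a uniformly computable sequence of families. -/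
theorem ucr_lim {F : α → ℝ} {G : α × ℕ → ℝ} {E : α × ℕ → Frac} (hG : UCR G) (hE : Computable E)
    (h1 : ∀ a n, |F a - G (a, n)| ≤ fracVal (E (a, n)))
    (h2 : ∀ a, Tendsto (fun n => fracVal (E (a, n))) atTop (𝓝 0)) : UCR F := by
  obtain ⟨A, hA, hA'⟩ := hG.exists_approx
  have hone : Computable (fun p : α × ℕ => (((1 : ℤ), p.2) : Frac)) :=
    (Computable.const _).pair Computable.snd
  refine ⟨fun p => A (p, ((1 : ℤ), p.2)), fun p => (E p).add ((1 : ℤ), p.2), ?_, ?_, ?_, ?_⟩
  · exact hA.comp (Computable.id.pair hone)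
  · exact Frac.prim_add.to_comp.comp hE hone
  · intro a _ n
    have e1 := h1 a n
    have e2 := hA' (a, n) ((1 : ℤ), n) (fracVal_one_div_pos n)
    simp only []
    rw [Frac.val_add]
    calc |F a - fracVal (A ((a, n), ((1 : ℤ), n)))|
        = |(F a - G (a, n)) + (G (a, n) - fracVal (A ((a, n), ((1 : ℤ), n))))| := by ring_nf
      _ ≤ |F a - G (a, n)| + |G (a, n) - fracVal (A ((a, n), ((1 : ℤ), n)))| := abs_add_le _ _
      _ ≤ _ := add_le_add e1 e2
  · intro a _
    have := (h2 a).add (tendsto_one_div_add_atTop_nhds_zero_nat (𝕜 := ℝ))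
    simpa [Frac.val_add, fracVal_one_div] using this

end lim

/-! ## The integral of the bump -/

theorem bump_lip : ∃ K : ℕ, ∀ x y, |bump x - bump y| ≤ K * |x - y| := by
  obtain ⟨C, hC0, hC⟩ := bumpy_bump.exists_bound 1
  obtain ⟨K, hK⟩ := exists_nat_ge C
  refine ⟨K, fun x y => ?_⟩
  have h := (convex_univ (𝕜 := ℝ) (E := ℝ)).norm_image_sub_le_of_norm_deriv_le (f := bump)
    (C := C) (x := y) (y := x)
    (fun z _ => (bump_contDiff (n := ⊤)).differentiable (by simp) z)
    (fun z _ => by rw [Real.norm_eq_abs]; simpa using hC z) (mem_univ _) (mem_univ _)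
  rw [Real.norm_eq_abs, Real.norm_eq_abs] at h
  exact h.trans (mul_le_mul_of_nonneg_right hK (abs_nonneg _))

theorem riemann {K : ℕ} (hK : ∀ x y, |bump x - bump y| ≤ K * |x - y|) (h : ℝ) (n : ℕ) :
    |dispG (n * h) - ∑ k ∈ Finset.range n, h * bump (k * h)| ≤ n * (K * h ^ 2) := by
  have hint : ∀ a b : ℝ, IntervalIntegrable bump MeasureTheory.volume a b := fun a b =>
    bump_cont.intervalIntegrable a b
  have e1 : dispG (n * h) = ∑ k ∈ Finset.range n, ∫ s in (k * h)..((k + 1 : ℕ) * h), bump s := by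
    have := intervalIntegral.sum_integral_adjacent_intervals (f := bump)
      (μ := MeasureTheory.volume) (a := fun k : ℕ => (k : ℝ) * h) (n := n)
      (fun k _ => hint _ _)
    rw [this]
    unfold dispG
    simp
  rw [e1, ← Finset.sum_sub_distrib]
  refine (Finset.abs_sum_le_sum_abs _ _).trans ?_
  have e2 : ∀ k ∈ Finset.range n,
      |(∫ s in ((k : ℝ) * h)..((k + 1 : ℕ) * h), bump s) - h * bump (k * h)| ≤ K * h ^ 2 := by
    intro k _
    have e3 : h * bump (k * h) = ∫ _ in ((k : ℝ) * h)..((k + 1 : ℕ) * h), bump (k * h) := by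
      rw [intervalIntegral.integral_const, smul_eq_mul]
      push_cast
      ring
    rw [e3, ← intervalIntegral.integral_sub (hint _ _) (by simp)]
    have e4 := intervalIntegral.norm_integral_le_of_norm_le_const (a := (k : ℝ) * h)
      (b := ((k + 1 : ℕ) : ℝ) * h) (f := fun s => bump s - bump (k * h)) (C := K * |h|) ?_
    · rw [Real.norm_eq_abs] at e4
      refine e4.trans (le_of_eq ?_)
      push_cast
      rw [show ((k : ℝ) + 1) * h - k * h = h by ring, mul_assoc, ← sq, sq_abs]
    · intro s hs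
      rw [Real.norm_eq_abs]
      refine (hK s (k * h)).trans (mul_le_mul_of_nonneg_left ?_ (Nat.cast_nonneg K))
      have hs' := uIoc_subset_uIcc hs
      have := abs_sub_left_of_mem_uIcc hs'
      push_cast at this
      rwa [show ((k : ℝ) + 1) * h - k * h = h by ring] at this
  refine (Finset.sum_le_sum e2).trans (le_of_eq ?_)
  simp

theorem ucr_dispG (hb : BumpUCR) : UCR (fun t : Frac => dispG (fracVal t)) := by
  obtain ⟨K, hK⟩ := bump_lip
  have hstep : Computable (fun p : Frac × ℕ => Frac.mul p.1 ((1 : ℤ), p.2)) :=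
    Frac.prim_mul.to_comp.comp Computable.fst ((Computable.const _).pair Computable.snd)
  have hG : UCR (fun p : Frac × ℕ => ∑ k ∈ Finset.range (p.2 + 1),
      fracVal (Frac.mul p.1 ((1 : ℤ), p.2)) *
        iteratedDeriv 0 bump (fracVal (Frac.mul (Frac.ofNat k) (Frac.mul p.1 ((1 : ℤ), p.2))))) := by
    refine UCR.sum_range (F := fun q : (Frac × ℕ) × ℕ => fracVal (Frac.mul q.1.1 ((1 : ℤ), q.1.2)) *
      iteratedDeriv 0 bump (fracVal (Frac.mul (Frac.ofNat q.2) (Frac.mul q.1.1 ((1 : ℤ), q.1.2)))))
      (N := fun p : Frac × ℕ => p.2 + 1) (Computable.succ.comp Computable.snd) ?_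
    refine UCR.mul (ucr_frac (hstep.comp Computable.fst)) ?_
    exact ucr_bump hb (Computable.const 0) (Frac.prim_mul.to_comp.comp
      (Frac.prim_ofNat.to_comp.comp Computable.snd) (hstep.comp Computable.fst))
  refine ucr_lim (E := fun p : Frac × ℕ => Frac.mul (Frac.mul (Frac.ofNat K)
    (Frac.mul p.1 p.1)) ((1 : ℤ), p.2)) hG ?_ ?_ ?_
  · refine Frac.prim_mul.to_comp.comp (Frac.prim_mul.to_comp.comp (Computable.const _)
      (Frac.prim_mul.to_comp.comp Computable.fst Computable.fst))
      ((Computable.const _).pair Computable.snd)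
  · intro t n
    have hn : ((n : ℝ) + 1) ≠ 0 := by positivity
    have h := riemann hK (fracVal (Frac.mul t ((1 : ℤ), n))) (n + 1)
    simp only [Frac.val_mul, Frac.val_ofNat, iteratedDeriv_zero, fracVal_one_div] at h ⊢
    push_cast at h
    have e1 : ((n : ℝ) + 1) * (fracVal t * (1 / ((n : ℝ) + 1))) = fracVal t := by
      field_simp
    have e2 : ((n : ℝ) + 1) * (K * (fracVal t * (1 / ((n : ℝ) + 1))) ^ 2) =
        K * (fracVal t * fracVal t) * (1 / ((n : ℝ) + 1)) := by
      field_simp
    rw [e1, e2] at h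
    exact h
  · intro t
    have := (tendsto_one_div_add_atTop_nhds_zero_nat (𝕜 := ℝ)).const_mul
      (K * (fracVal t * fracVal t) : ℝ)
    rw [mul_zero] at this
    simpa only [Frac.val_mul, Frac.val_ofNat, fracVal_one_div] using this

/-! ## The switch -/

theorem iteratedDeriv_chi_succ (n : ℕ) (t : ℝ) :
    iteratedDeriv (n + 1) chi t = iteratedDeriv n bump (t - 1) := by
  rw [iteratedDeriv_succ']
  have : deriv chi = fun t => bump (t - 1) := funext deriv_chi
  rw [this, iteratedDeriv_comp_sub_const]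

variable {A : Type*} [Primcodable A]

theorem ucr_chi (hb : BumpUCR) {n : A → ℕ} {t : A → Frac} (hn : Computable n)
    (ht : Computable t) : UCR (fun a => iteratedDeriv (n a) chi (fracVal (t a))) := by
  have ht' : Computable (fun a => Frac.add (t a) ((-1 : ℤ), 0)) :=
    Frac.prim_add.to_comp.comp ht (Computable.const _)
  have hv : ∀ a, fracVal (Frac.add (t a) ((-1 : ℤ), 0)) = fracVal (t a) - 1 := by
    intro a
    rw [Frac.val_add]
    simp [fracVal]
    ring
  have h0 : UCR (fun a => dispG (fracVal (Frac.add (t a) ((-1 : ℤ), 0)))) :=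
    UCR.comp (F := fun t : Frac => dispG (fracVal t)) (ucr_dispG hb) ht'
  have h1 : UCR (fun a => iteratedDeriv (n a - 1) bump
      (fracVal (Frac.add (t a) ((-1 : ℤ), 0)))) :=
    ucr_bump hb (Primrec.nat_sub.to_comp.comp hn (Computable.const 1)) ht'
  have hc : Computable (fun a => decide (n a = 0)) :=
    (Primrec.eq.decide.to_comp).comp hn (Computable.const 0)
  refine (UCR.cond hc (h0.on _) (h1.on _)).congr fun a => ?_
  simp only [hv]
  by_cases h : n a = 0
  · simp [h, chi]
  · simp only [h, decide_false, cond_false]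
    obtain ⟨k, hk⟩ := Nat.exists_eq_succ_of_ne_zero h
    rw [hk, Nat.succ_eq_add_one, Nat.add_sub_cancel, iteratedDeriv_chi_succ]

end Vale.Agent.P113.H435
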